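import Vale.Agent.P343.Rel

namespace Vale.Agent.Results.P343.SakodaSipser

/-- Tape symbols: the two endmarkers and the letters. -/
inductive Sym (A : Type) where
  | lend | rend | ltr (a : A)

/-- Head moves. -/
inductive Dir where
  | L | S | R

/-- The symbol in cell `i` of the tape holding `w` between endmarkers; cell `0` is the left one. -/
def tape {A : Type} (w : List A) : ℕ → Sym A
  | 0 => .lend
  | i + 1 => match w[i]? with
    | some a => .ltr a
    | none => .rend

def move : Dir → ℕ → ℕ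
  | .L, i => i - 1
  | .S, i => i
  | .R, i => i + 1

/-- A two-way nondeterministic automaton with alphabet `A` and state set `Q`. -/
structure NFA2 (A Q : Type) where
  init : Q
  acc : Set Q
  δ : Q → Sym A → Set (Q × Dir)
  noL : ∀ q p, (p, Dir.L) ∉ δ q .lend
  noR : ∀ q p, (p, Dir.R) ∉ δ q .rend

namespace NFA2

variable {A Q : Type} (M : NFA2 A Q)

/-- One step between configurations (state, head position) on input `w`. -/
def Step (w : List A) (c c' : Q × ℕ) : Prop :=
  ∃ d, (c'.1, d) ∈ M.δ c.1 (tape w c.2) ∧ c'.2 = move d c.2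

/-- The accepted words: some finite computation reaches an accepting state. -/
def lang : Set (List A) :=
  {w | ∃ q ∈ M.acc, ∃ i, Relation.ReflTransGen (M.Step w) (M.init, 0) (q, i)}

def Det : Prop := ∀ q a, (M.δ q a).Subsingleton

def OneWay : Prop := ∀ q a p, (p, Dir.L) ∉ M.δ q a

end NFA2

open Vale.Agent.P343 Relation

variable {A Q : Type} (M : NFA2 A Q)

def sel {X : Type} : Dir → X → X → X → X
  | .L, a, _, _ => a
  | .S, _, b, _ => b
  | .R, _, _, c => c

def Con (a : Sym A) (α β γ : Q → ZMod 2) : Prop :=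
  ∀ q, (q ∈ M.acc → β q = 0) ∧ (q ∉ M.acc → ∀ p d, (p, d) ∈ M.δ q a → β q = sel d α β γ p)

def Ra (a : A) : LR (ZMod 2) ((Q → ZMod 2) × (Q → ZMod 2)) :=
  ⟨{ carrier := {x | x.1.2 = x.2.1 ∧ Con M (.ltr a) x.1.1 x.1.2 x.2.2}
     add_mem' := fun ⟨a1, a2⟩ ⟨b1, b2⟩ => ⟨congrArg₂ (· + ·) a1 b1, fun q =>
       ⟨fun h => by simp [(a2 q).1 h, (b2 q).1 h], fun h p d hp => by
         have := congrArg₂ (· + ·) ((a2 q).2 h p d hp) ((b2 q).2 h p d hp)
         cases d <;> exact this⟩⟩
     zero_mem' := ⟨rfl, fun q => ⟨fun _ => rfl, fun _ _ d _ => by cases d <;> rfl⟩⟩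
     smul_mem' := fun c _ ⟨a1, a2⟩ => ⟨congrArg (c • ·) a1, fun q =>
       ⟨fun h => by simp [(a2 q).1 h], fun h p d hp => by
         have := congrArg (c • ·) ((a2 q).2 h p d hp)
         cases d <;> exact this⟩⟩ }⟩

theorem mem_R (w : List A) (x y) : (x, y) ∈ (w.map (Ra M)).prod.s ↔ ∃ v : ℕ → Q → ZMod 2,
    x = (v 0, v 1) ∧ y = (v w.length, v (w.length + 1)) ∧
      ∀ i < w.length, Con M (tape w (i + 1)) (v i) (v (i + 1)) (v (i + 2)) := by
  induction w generalizing x with
  | nil =>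
    refine ⟨fun h => ⟨fun i => if i = 0 then x.1 else x.2, rfl, (mem_one.1 h).symm, by simp⟩, ?_⟩
    rintro ⟨v, rfl, rfl, -⟩; rfl
  | cons a w ih =>
    rw [List.map_cons, List.prod_cons, mem_mul]
    constructor
    · rintro ⟨u, ⟨a1, a2⟩, h⟩
      obtain ⟨v, rfl, rfl, h'⟩ := (ih u).1 h
      refine ⟨fun i => Nat.casesOn i x.1 v, Prod.ext rfl a1, rfl, ?_⟩
      rintro (_ | i) hi
      · change Con M (.ltr a) x.1 (v 0) (v 1)
        exact (show x.2 = v 0 from a1) ▸ a2
      · exact h' i (by simpa using hi)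
    · rintro ⟨v, rfl, rfl, h⟩
      exact ⟨(v 1, v 2), ⟨rfl, h 0 (by simp)⟩, (ih _).2 ⟨fun i => v (i + 1), rfl, rfl,
        fun i hi => h (i + 1) (by simpa using hi)⟩⟩

def Acc (R : LR (ZMod 2) ((Q → ZMod 2) × (Q → ZMod 2))) : Prop :=
  ∀ x y, (x, y) ∈ R.s → Con M .lend x.1 x.1 x.2 → Con M .rend y.1 y.2 y.2 → x.1 M.init = 0

theorem tape_end (w : List A) : tape w (w.length + 1) = .rend := by simp [tape]

theorem acc_iff (hM : M.Det) (w : List A) : w ∈ M.lang ↔ Acc M (w.map (Ra M)).prod := by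
  classical
  constructor
  · rintro ⟨q, hq, i, h⟩ x y hxy h1 h2
    obtain ⟨v, rfl, rfl, h3⟩ := (mem_R M w x y).1 hxy
    have k : ∀ i ≤ w.length + 1, Con M (tape w i) (v (i - 1)) (v i) (v (min (i + 1) (w.length + 1))) := by
      rintro (_ | i) hi
      · simpa [tape] using h1
      · rcases (Nat.le_of_succ_le_succ hi).eq_or_lt with rfl | hi
        · simpa [tape_end] using h2
        · rw [min_eq_left (by omega)]; exact h3 i hi
    have k2 : ∀ c : Q × ℕ, ReflTransGen (M.Step w) c (q, i) → c.2 ≤ w.length + 1 → v c.2 c.1 = 0 := by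
      intro c hc
      induction hc using ReflTransGen.head_induction_on with
      | refl => exact fun h => (k i h q).1 hq
      | @head a b hab _ ih =>
        intro ha
        by_cases h : a.1 ∈ M.acc
        · exact (k _ ha _).1 h
        obtain ⟨d, d1, d2⟩ := hab
        rw [(k _ ha _).2 h _ d d1]
        rw [d2] at ih
        cases d
        · exact ih (by simp only [move]; omega)
        · exact ih ha
        · have : a.2 ≠ w.length + 1 := fun e => M.noR _ _ (by rwa [e, tape_end] at d1)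
          rw [min_eq_left (by omega)]
          exact ih (by simp only [move]; omega)
    exact k2 _ h (Nat.zero_le _)
  · intro h
    by_contra hw
    let v : ℕ → Q → ZMod 2 := fun i p =>
      if ∃ q ∈ M.acc, ∃ j, ReflTransGen (M.Step w) (p, i) (q, j) then 0 else 1
    have k : ∀ i, Con M (tape w i) (v (i - 1)) (v i) (v (i + 1)) := fun i q => by
      refine ⟨fun h => if_pos ⟨q, h, i, .refl⟩, fun h p d hp => ?_⟩
      have : v i q = v (move d i) p := if_congr ⟨fun ⟨r, a, j, b⟩ => by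
        rcases b.cases_head with b | ⟨c, ⟨d', b1, b2⟩, b⟩
        · exact (h (by rwa [show q = r from congrArg Prod.fst b])).elim
        · obtain ⟨rfl, rfl⟩ := Prod.mk.inj (hM _ _ hp b1)
          exact ⟨r, a, j, by rwa [← b2]⟩, fun ⟨r, a, j, b⟩ => ⟨r, a, j, .head ⟨d, hp, rfl⟩ b⟩⟩ rfl rfl
      cases d <;> exact this
    have := h _ _ ((mem_R M w _ _).2 ⟨v, rfl, rfl, fun i _ => k (i + 1)⟩) (k 0) fun q =>
      ⟨(k _ q).1, fun h p d hp => by
        have := (k (w.length + 1) q).2 h p d (by rwa [tape_end])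
        cases d
        exacts [this, this, (M.noR _ _ hp).elim]⟩
    exact one_ne_zero ((if_neg hw).symm.trans this)

theorem lower {h k : ℕ} (hk : 2 + 7 * k ≤ h) {Q : Type} [Fintype Q] (M : NFA2 (BR (Fin h)) Q)
    (hM : M.Det) (hL : ∀ w, w ∈ M.lang ↔ ∃ p q, w.prod.r p q) : 2 ^ k ≤ 2 * Fintype.card Q := by
  have g : Good fun s (x : BR (Fin h)) => ∃ w : List (BR (Fin h)), s = (w.map (Ra M)).prod ∧ x = w.prod :=
    { mul := by
        rintro _ _ _ _ ⟨w, rfl, rfl⟩ ⟨w', rfl, rfl⟩
        exact ⟨w ++ w', by simp, by simp⟩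
      surj := fun x => ⟨_, [x], rfl, by simp⟩
      anti := by
        rintro _ _ _ _ ⟨w, rfl, rfl⟩ ⟨w', rfl, rfl⟩ hs p q hr
        let l : Fin h → BR (Fin h) := fun p => ⟨fun a b => a = p ∧ b = p⟩
        have a := (acc_iff M hM _).1 ((hL (l p :: w' ++ [l q])).2 ⟨p, q, by simp [BR.mul_r, l, hr]⟩)
        have b := (hL (l p :: w ++ [l q])).1 ((acc_iff M hM _).2 fun x y hxy => a x y (by
          simp only [List.map_append, List.map_cons, List.prod_append, List.prod_cons, mem_mul] at hxy ⊢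
          obtain ⟨u, ⟨u', c1, c2⟩, c3⟩ := hxy
          exact ⟨u, ⟨u', c1, hs c2⟩, c3⟩))
        simpa [BR.mul_r, l] using b }
  have := main k (Fin h) (by simpa using hk) _ g 1 _ ⟨0, by omega⟩ ⟨1, by omega⟩ (by simp) (one_mul 1)
    ⟨[], rfl, rfl⟩ ⟨[T ⟨0, by omega⟩ ⟨1, by omega⟩], rfl, by simp⟩
  have a := Submodule.finrank_le (fix (1 : LR (ZMod 2) ((Q → ZMod 2) × (Q → ZMod 2))))
  simp only [Module.finrank_prod, Module.finrank_fintype_fun_eq_card] at a
  omega

def live (h : ℕ) : NFA2 (BR (Fin h)) (Option (Option (Fin h))) where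
  init := none
  acc := {some none}
  δ := fun q a => match q, a with
    | none, .lend => {x | ∃ j, x = (some (some j), .R)}
    | some (some i), .ltr a => {x | ∃ j, a.r i j ∧ x = (some (some j), .R)}
    | some (some _), .rend => {(some none, .S)}
    | _, _ => ∅
  noL := by rintro (_ | _ | _) p <;> simp
  noR := by rintro (_ | _ | _) p <;> simp

theorem live_lang (h : ℕ) (w) : w ∈ (live h).lang ↔ ∃ p q, w.prod.r p q := by
  constructor
  · rintro ⟨q, rfl, i, hi⟩
    have k : ∀ c, ReflTransGen ((live h).Step w) (none, 0) c → (c.1 = none → c.2 = 0) ∧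
        (c.1 = some none → ∃ p q, w.prod.r p q) ∧
        ∀ j, c.1 = some (some j) → ∃ i, c.2 = i + 1 ∧ ∃ p, (w.take i).prod.r p j := by
      intro c hc
      induction hc with
      | refl => simp
      | @tail b c _ hbc ih =>
        obtain ⟨d, d1, d2⟩ := hbc
        obtain ⟨_ | _ | j, i⟩ := b
        · obtain rfl : i = 0 := ih.1 rfl
          obtain ⟨j, hj⟩ := d1
          obtain ⟨e, rfl⟩ := Prod.mk.inj hj
          simp [e, d2, move, BR.one_r]
        · cases d1
        · obtain ⟨i, rfl, p, hp⟩ := ih.2.2 j rfl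
          simp only [tape] at d1
          cases hw : w[i]? with
          | none =>
            rw [hw] at d1
            obtain ⟨e, rfl⟩ := Prod.mk.inj d1
            rw [List.take_of_length_le (List.getElem?_eq_none_iff.1 hw)] at hp
            simp only [e]
            exact ⟨by simp, fun _ => ⟨p, j, hp⟩, by simp⟩
          | some a =>
            rw [hw] at d1
            obtain ⟨j', a1, a2⟩ := d1
            obtain ⟨e, rfl⟩ := Prod.mk.inj a2
            simp only [e]
            refine ⟨by simp, by simp, ?_⟩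
            rintro _ ⟨⟩
            exact ⟨i + 1, d2, p, by
              rw [List.take_add_one, hw, List.prod_append]; exact ⟨j, hp, by simpa using a1⟩⟩
    exact (k _ hi).2.1 rfl
  · rintro ⟨p, q, hr⟩
    have k : ∀ i ≤ w.length, ∀ j, (w.take i).prod.r p j →
        ReflTransGen ((live h).Step w) (none, 0) (some (some j), i + 1) := by
      intro i
      induction i with
      | zero => exact fun _ j _ => .single ⟨.R, ⟨j, rfl⟩, rfl⟩
      | succ i ih =>
        intro hi j hj
        have hw : w[i]? = some w[i] := List.getElem?_eq_getElem hi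
        rw [List.take_add_one, hw, List.prod_append] at hj
        obtain ⟨u, a1, a2⟩ := hj
        refine (ih (by omega) u a1).tail ⟨.R, ?_, rfl⟩
        simp only [tape, hw]
        exact ⟨j, by simpa using a2, rfl⟩
    refine ⟨_, rfl, w.length + 1, (k _ le_rfl q (by simpa using hr)).tail ⟨.S, ?_, rfl⟩⟩
    rw [tape_end]; rfl

theorem explicit (k : ℕ) : ∃ (A Q : Type) (_ : Fintype A) (_ : Fintype Q) (M : NFA2 A Q),
    M.OneWay ∧ Fintype.card Q = 7 * k + 4 ∧ ∀ (Q' : Type) [Fintype Q'] (N : NFA2 A Q'),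
      N.Det → N.lang = M.lang → 2 ^ k ≤ 2 * Fintype.card Q' :=
  ⟨_, _, Fintype.ofFinite _, inferInstance, live (2 + 7 * k), by
    rintro (_ | _ | _) (_ | _ | _) p <;> simp [live], by simp; omega, fun _ _ N h1 h2 =>
      lower le_rfl N h1 fun w => h2 ▸ live_lang _ w⟩

theorem result :
    (∀ k : ℕ, ∃ (A Q : Type) (_ : Fintype A) (_ : Fintype Q) (M : NFA2 A Q),
      M.OneWay ∧ Fintype.card Q = 7 * k + 4 ∧ ∀ (Q' : Type) [Fintype Q'] (N : NFA2 A Q'),
        N.Det → N.lang = M.lang → 2 ^ k ≤ 2 * Fintype.card Q') ∧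
    (¬ ∃ p : Polynomial ℝ, ∀ (A Q : Type) [Fintype A] [Fintype Q] (M : NFA2 A Q),
      ∃ (Q' : Type) (_ : Fintype Q') (N : NFA2 A Q'), N.Det ∧ N.lang = M.lang ∧
        (Fintype.card Q' : ℝ) ≤ p.eval (Fintype.card Q : ℝ)) ∧
    ¬ ∃ p : Polynomial ℝ, ∀ (A Q : Type) [Fintype A] [Fintype Q] (M : NFA2 A Q), M.OneWay →
      ∃ (Q' : Type) (_ : Fintype Q') (N : NFA2 A Q'), N.Det ∧ N.lang = M.lang ∧
        (Fintype.card Q' : ℝ) ≤ p.eval (Fintype.card Q : ℝ) := by
  refine ⟨explicit, (fun h => ⟨fun ⟨p, hp⟩ => h ⟨p, fun A Q _ _ M _ => hp A Q M⟩, h⟩) ?_⟩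
  rintro ⟨p, hp⟩
  have l2 := Real.log_pos one_lt_two
  have t := ((p.comp (Polynomial.C (7 / Real.log 2) * Polynomial.X + 4)).tendsto_div_exp_atTop.comp
    (tendsto_natCast_atTop_atTop.atTop_mul_const l2)).eventually (gt_mem_nhds one_half_pos)
  obtain ⟨k, hk⟩ := t.exists
  obtain ⟨A, Q, _, _, M, h1, h2, h3⟩ := explicit k
  obtain ⟨Q', _, N, a1, a2, a3⟩ := hp A Q M h1
  have a4 : (2 : ℝ) ^ k ≤ 2 * Fintype.card Q' := by exact_mod_cast h3 Q' N a1 a2
  simp only [Function.comp, Polynomial.eval_comp, Polynomial.eval_add, Polynomial.eval_mul,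
    Polynomial.eval_C, Polynomial.eval_X, Polynomial.eval_ofNat, Real.exp_nat_mul,
    Real.exp_log two_pos] at hk
  rw [div_lt_iff₀ (by positivity), show 7 / Real.log 2 * (k * Real.log 2) + 4 = Fintype.card Q by
    rw [h2]; push_cast; field_simp] at hk
  linarith

end Vale.Agent.Results.P343.SakodaSipser
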